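import Crest.Agent.Kac.ConfigB
import Crest.Agent.Kac.ConfigA0

/-!
Splitting of configuration integrals: `ZW_super`, `ZW_sub`, `ZW_super_fam`, `ZW_sub_fam`
are proved in `Crest.Agent.Kac.ConfigA0` (which only needs `Defs`).
-/
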