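import Crest.Agent.Kac.KernelB1
import Crest.Agent.Kac.KernelB2

/-! S0209: KernelB = `energy_kap`, `kap_sum_ge` (KernelB1) and `kap_sum_le` (KernelB2). -/
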